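import Vale.Agent.P250.Full.NetsSum
import Vale.Agent.P250.Full.Shells
import Vale.Agent.P250.Full.OneVar
import Vale.Agent.P250.Full.Weight.Phi

/-!
Preparations for the basic step: movement of slice coordinates, the scales, single layers and
integrals over slices of shells.
-/

namespace Vale.Agent.P250.Full

open Complex MeasureTheory Set
open scoped ComplexConjugate ContDiff Real

namespace Step

theorem nsq_sub_le {z e : Fin 2 → ℂ} (hz : nsq z ≤ 1) (he : nsq e ≤ 1) :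
    nsq (z - e) ≤ 2 * ‖1 - ip z e‖ := by
  have h1 : nsq (z - e) = nsq z + nsq e - 2 * (ip z e).re := by
    simp [nsq, ip, normSq_apply]
    ring
  have h2 := Complex.re_le_norm (1 - ip z e)
  simp only [sub_re, one_re] at h2
  linarith

/-- A slice coordinate moves little between a point and a nearby unit vector. -/
theorem ip_move {z e w : Fin 2 → ℂ} (hz : nsq z ≤ 1) (he : e ∈ sph) (hw : nsq w ≤ 1) :
    ‖ip z w - ip e w‖ ≤ ‖1 - ip z e‖ + 2 * Real.sqrt (‖1 - ip z e‖ * ‖1 - ip e w‖) := by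
  have he' : nsq e = 1 := he
  have hee : ip e e = 1 := by rw [ip_self, he', ofReal_one]
  have hd : ip z w - ip e w = ip (z - e) (w - e) - (1 - ip z e) := by
    have : ip (z - e) (w - e) = ip z w - ip z e - ip e w + ip e e := by
      simp [ip]; ring
    rw [this, hee]; ring
  rw [hd]
  refine (norm_sub_le _ _).trans ?_
  rw [add_comm]
  refine add_le_add le_rfl ?_
  refine (pow_le_pow_iff_left₀ (norm_nonneg _) (by positivity) two_ne_zero).1 ?_
  rw [mul_pow, Real.sq_sqrt (by positivity)]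
  refine (Weight.norm_ip_sq_le _ _).trans ?_
  have h1 := nsq_sub_le hz he'.le
  have h2 : nsq (w - e) ≤ 2 * ‖1 - ip e w‖ := by
    rw [norm_one_sub_ip_comm e w]; exact nsq_sub_le hw he'.le
  have h0 : ∀ u : Fin 2 → ℂ, 0 ≤ nsq u := fun u => add_nonneg (normSq_nonneg _) (normSq_nonneg _)
  exact (mul_le_mul h1 h2 (h0 _) (by positivity)).trans (le_of_eq (by ring))

theorem norm_ip_lt_one {z e : Fin 2 → ℂ} (hz : nsq z < 1) (he : e ∈ sph) : ‖ip z e‖ < 1 := by
  have h := Weight.norm_ip_sq_le z e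
  rw [show nsq e = 1 from he, mul_one] at h
  nlinarith [norm_nonneg (ip z e)]

/-- Slice coordinates of a coarse layer move little inside the region of the step. -/
theorem osc {y ζ e : Fin 2 → ℂ} {r t κ : ℝ} (hζ : ζ ∈ sph) (he : e ∈ sph) (hy : nsq y ≤ 1)
    (hr0 : 0 ≤ r) (hr1 : r < 1) (ht : 0 < t) (ht' : t ≤ 1 / 1000) (hκ0 : 0 ≤ κ) (hκ : κ ≤ 1 / 18)
    (hδ : 1 - r ≤ κ ^ 2 * t) (hyζ : ‖1 - ip y ζ‖ ≤ 3 / 2 * (1 - r)) :
    ‖ip ((r : ℂ) • ζ) e - ip y e‖ ≤ 9 * κ * ‖1 - (av t : ℂ) * ip ((r : ℂ) • ζ) e‖ := by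
  obtain ⟨ha, hat, ha1⟩ := OneVar.av_bounds ht ht'
  have hzr : ip ((r : ℂ) • ζ) e = (r : ℂ) * ip ζ e := by
    simp [ip]; ring
  have hζe : ‖ip ζ e‖ ≤ 1 := Weight.norm_ip_le_one (le_of_eq hζ) he
  set s := ip ((r : ℂ) • ζ) e with hsdef
  have hs : ‖s‖ < 1 := by
    rw [hzr, norm_mul, Complex.norm_of_nonneg hr0]
    nlinarith [norm_nonneg (ip ζ e)]
  set E := ‖1 - (av t : ℂ) * s‖ with hE
  have hEt : t ≤ E := hat.trans (OneVar.den_bound (by linarith) hs)
  have h2t : 1 - av t ≤ 2 * t := Weight.one_sub_av_le ht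
  have h1s : ‖1 - s‖ ≤ 3 * E := by
    have e1 : 1 - s = (1 - (av t : ℂ) * s) - ((1 - av t : ℝ) : ℂ) * s := by push_cast; ring
    rw [e1]
    refine (norm_sub_le _ _).trans ?_
    rw [norm_mul, Complex.norm_of_nonneg (by linarith : 0 ≤ 1 - av t)]
    nlinarith [norm_nonneg s]
  have hd1 : ‖s - ip ζ e‖ ≤ 1 - r := by
    rw [hzr, show (r : ℂ) * ip ζ e - ip ζ e = -(((1 - r : ℝ) : ℂ) * ip ζ e) by push_cast; ring,
      norm_neg, norm_mul, Complex.norm_of_nonneg (by linarith : (0 : ℝ) ≤ 1 - r)]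
    exact mul_le_of_le_one_right (by linarith) hζe
  have hk2 : κ ^ 2 ≤ κ := by nlinarith
  have hδE : 1 - r ≤ κ ^ 2 * E := hδ.trans (mul_le_mul_of_nonneg_left hEt (sq_nonneg κ))
  have hδE' : 1 - r ≤ E := by nlinarith
  have h1ζ : ‖1 - ip ζ e‖ ≤ 4 * E := by
    linarith [norm_sub_le_norm_sub_add_norm_sub (1 : ℂ) s (ip ζ e)]
  have hE0 : 0 ≤ E := norm_nonneg _
  have hsq : Real.sqrt (‖1 - ip y ζ‖ * ‖1 - ip ζ e‖) ≤ 3 * κ * E := by
    rw [Real.sqrt_le_left (by positivity)]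
    refine (mul_le_mul hyζ h1ζ (norm_nonneg _) (by linarith)).trans ?_
    nlinarith [mul_le_mul_of_nonneg_right hδE hE0, mul_nonneg (sq_nonneg κ) (mul_nonneg hE0 hE0)]
  have hm := ip_move hy hζ (le_of_eq he : nsq e ≤ 1)
  have := norm_sub_le_norm_sub_add_norm_sub s (ip ζ e) (ip y e)
  rw [norm_sub_rev (ip ζ e) (ip y e)] at this
  nlinarith

/-! ### Scales -/

/-- The fourth root of the ratio of consecutive layers. -/
noncomputable def layGap (D : ℝ) : ℝ := Real.exp (-(D / 4))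

theorem layGap_pos (D : ℝ) : 0 < layGap D := Real.exp_pos _

theorem tl_add (D : ℝ) (m i : ℕ) : tl D (m + i) = tl D m * (layGap D ^ 4) ^ i := by
  simp only [tl, layGap, ← Real.exp_nat_mul, ← Real.exp_add]
  congr 1
  push_cast
  ring

theorem depth_eq (D : ℝ) (m : ℕ) : depth D m = tl D m * layGap D ^ 2 := by
  simp only [depth, tl, layGap, ← Real.exp_nat_mul, ← Real.exp_add]
  congr 1
  push_cast
  ring

theorem tl_succ_eq (D : ℝ) (m : ℕ) : tl D (m + 1) = depth D m * layGap D ^ 2 := by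
  simp only [depth, tl, layGap, ← Real.exp_nat_mul, ← Real.exp_add]
  congr 1
  push_cast
  ring

/-! ### Layers -/

/-- The layer `i + 1` of the weight. -/
noncomputable def lay (ρ D : ℝ) (i : ℕ) (z : Fin 2 → ℂ) : ℝ :=
  ∑ e ∈ net (tl D (i + 1)), cell ρ D (i + 1) e z

theorem phi_eq_tsum (ρ D : ℝ) (z : Fin 2 → ℂ) : phi ρ D z = ∑' i, lay ρ D i z := rfl

/-- A layer far finer than the depth of the point is small. -/
theorem lay_small {ρ D C CL u : ℝ} {i : ℕ} {z : Fin 2 → ℂ} (ht : tl D (i + 1) ≤ 1 / 1000)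
    (hC : 0 ≤ C) (hz : z ∈ ball2) (hu : u ≤ 1 / 64) (hu' : tl D (i + 1) ≤ u * (1 - nsq z))
    (hcell : ∀ s : ℂ, ‖s‖ < 1 → ‖vc (tl D (i + 1)) s‖ ≤ 1 / 8 →
      |cell1 ρ (tl D (i + 1)) s| ≤ C * ‖vc (tl D (i + 1)) s‖ ^ 5)
    (hsum : ∑ e ∈ net (tl D (i + 1)), ‖vc (tl D (i + 1)) (ip z e)‖ ^ 5
      ≤ CL * (tl D (i + 1) / (1 - nsq z)) ^ 3) (hCL : 0 ≤ CL) :
    |lay ρ D i z| ≤ C * CL * u := by
  set t := tl D (i + 1) with htdef
  have ht0 : 0 < t := Real.exp_pos _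
  have hd : 0 < 1 - nsq z := sub_pos.2 hz
  have hq : t / (1 - nsq z) ≤ u := (div_le_iff₀ hd).2 hu'
  have hq0 : 0 ≤ t / (1 - nsq z) := (div_pos ht0 hd).le
  have hmem := (isNet_net t ht0).1
  refine (Finset.abs_sum_le_sum_abs _ _).trans ?_
  have h1 : ∀ e ∈ net t, |cell ρ D (i + 1) e z| ≤ C * ‖vc t (ip z e)‖ ^ 5 := fun e he => by
    refine hcell _ (norm_ip_lt_one hz (hmem e he)) ?_
    refine (Weight.norm_vc_le ht0 (by linarith) hz (hmem e he)).trans ?_
    rw [mul_div_assoc]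
    linarith
  refine (Finset.sum_le_sum h1).trans ?_
  rw [← Finset.mul_sum, mul_assoc]
  refine mul_le_mul_of_nonneg_left (hsum.trans (mul_le_mul_of_nonneg_left ?_ hCL)) hC
  calc (t / (1 - nsq z)) ^ 3 ≤ (t / (1 - nsq z)) ^ 1 :=
        pow_le_pow_of_le_one hq0 (by linarith) (by norm_num)
    _ ≤ u := by rw [pow_one]; exact hq

/-- A coarse layer changes little between two points at a relative distance `w`. -/
theorem lay_osc {ρ D C CL w : ℝ} {i : ℕ} {x y : Fin 2 → ℂ}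
    (hC : 0 ≤ C) (hw0 : 0 ≤ w) (hw : w ≤ 1 / 2) (hx : x ∈ ball2) (hy : y ∈ ball2)
    (hmove : ∀ e ∈ sph, ‖ip x e - ip y e‖ ≤ w * ‖1 - (av (tl D (i + 1)) : ℂ) * ip x e‖)
    (hcell : ∀ s s' : ℂ, ‖s‖ < 1 → ‖s'‖ < 1 →
      ‖s - s'‖ ≤ ‖1 - (av (tl D (i + 1)) : ℂ) * s‖ / 2 →
      |cell1 ρ (tl D (i + 1)) s' - cell1 ρ (tl D (i + 1)) s|
        ≤ C * ‖vc (tl D (i + 1)) s‖ ^ 5 * ‖s - s'‖ / ‖1 - (av (tl D (i + 1)) : ℂ) * s‖)
    (hsum : ∑ e ∈ net (tl D (i + 1)), ‖vc (tl D (i + 1)) (ip x e)‖ ^ 5 ≤ CL) :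
    lay ρ D i y - lay ρ D i x ≤ C * CL * w := by
  set t := tl D (i + 1) with htdef
  have hmem := (isNet_net t (Real.exp_pos _)).1
  have h1 : ∀ e ∈ net t,
      cell ρ D (i + 1) e y - cell ρ D (i + 1) e x ≤ C * w * ‖vc t (ip x e)‖ ^ 5 := fun e he => by
    have hm := hmove e (hmem e he)
    have h0 : 0 ≤ ‖1 - (av t : ℂ) * ip x e‖ := norm_nonneg _
    have h := hcell _ _ (norm_ip_lt_one hx (hmem e he)) (norm_ip_lt_one hy (hmem e he))
      (hm.trans (by nlinarith))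
    refine ((le_abs_self _).trans h).trans ?_
    rw [mul_div_assoc, mul_assoc C w, mul_comm w, ← mul_assoc]
    exact mul_le_mul_of_nonneg_left (div_le_of_le_mul₀ h0 hw0 hm) (by positivity)
  calc lay ρ D i y - lay ρ D i x
      = ∑ e ∈ net t, (cell ρ D (i + 1) e y - cell ρ D (i + 1) e x) := by
        rw [Finset.sum_sub_distrib]; rfl
    _ ≤ ∑ e ∈ net t, C * w * ‖vc t (ip x e)‖ ^ 5 := Finset.sum_le_sum h1
    _ ≤ C * w * CL := by
        rw [← Finset.mul_sum]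
        exact mul_le_mul_of_nonneg_left hsum (mul_nonneg hC hw0)
    _ = C * CL * w := by ring

/-! ### Integrals over slices -/

theorem volume_real_slice {R' R : ℝ} (h' : 0 < R') (hR : R' < R) {e : Fin 2 → ℂ} (he : e ∈ sph)
    (c : ℂ) {r : ℝ} (hr : 0 ≤ r) (hc : ‖c‖ + r ≤ R') :
    volume.real (sliceSet R' R e (Metric.ball c r)) = π * (R ^ 2 - R' ^ 2) * (π * r ^ 2) := by
  have hw : 0 ≤ π * (R ^ 2 - R' ^ 2) := mul_nonneg Real.pi_pos.le (by nlinarith)
  rw [measureReal_def, (shellVolume R' R h' hR e he _ measurableSet_ball).2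
    (Metric.ball_subset_ball' (by rw [dist_zero_right]; linarith)), volume_ball_complex c hr,
    ENNReal.toReal_mul, ENNReal.toReal_ofReal hw, ENNReal.toReal_ofReal (by positivity)]

theorem isCompact_cball2 {R : ℝ} (hR : 0 ≤ R) : IsCompact (cball2 R) := by
  refine Metric.isCompact_of_isClosed_isBounded (isClosed_le continuous_nsq continuous_const)
    ((Metric.isBounded_closedBall (x := (0 : Fin 2 → ℂ)) (r := R)).subset fun z hz => ?_)
  rw [mem_closedBall_zero_iff, pi_norm_le_iff_of_nonneg hR]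
  intro i
  refine (abs_le_of_sq_le_sq' ?_ hR).2
  have h2 : ‖z 0‖ ^ 2 + ‖z 1‖ ^ 2 ≤ R ^ 2 := by rw [← nsq_eq_norm_sq]; exact hz
  fin_cases i <;> simp <;> nlinarith [sq_nonneg ‖z 0‖, sq_nonneg ‖z 1‖]

theorem integrableOn_shell {R' R : ℝ} (hR0 : 0 ≤ R) (hR1 : R < 1) {F : (Fin 2 → ℂ) → ℝ}
    (hF : ContinuousOn F ball2) {S : Set (Fin 2 → ℂ)} (hS : S ⊆ shell R' R) :
    IntegrableOn F S := by
  have hsub : cball2 R ⊆ ball2 := fun z hz => by
    have : nsq z ≤ R ^ 2 := hz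
    exact show nsq z < 1 by nlinarith
  exact ((hF.mono hsub).integrableOn_compact (isCompact_cball2 hR0)).mono_set
    fun z hz => le_of_lt (hS hz).2

/-- The integral of a constant minus a pluriharmonic function over a slice disc. -/
theorem integral_const_sub {R' R : ℝ} (h' : 0 < R') (hR : R' < R) (hR1 : R < 1)
    {e : Fin 2 → ℂ} (he : e ∈ sph) (c : ℂ) {r : ℝ} (hr : 0 < r) (hc : ‖c‖ + r ≤ R')
    {h : (Fin 2 → ℂ) → ℝ} (hh : ContDiffOn ℝ 2 h ball2)
    (hp : ∀ z ∈ ball2, ∀ v, levQ h z v = 0) (K : ℝ) :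
    ∫ z in sliceSet R' R e (Metric.ball c r), (K - h z)
      = π * (R ^ 2 - R' ^ 2) * (π * r ^ 2) * (K - h (c • e)) := by
  have hsub : cball2 R ⊆ ball2 := fun z hz => by
    have : nsq z ≤ R ^ 2 := hz
    exact show nsq z < 1 by nlinarith
  have hS : sliceSet R' R e (Metric.ball c r) ⊆ shell R' R := fun z hz => hz.1
  rw [integral_sub (integrableOn_shell (by linarith) hR1 continuousOn_const hS)
    (integrableOn_shell (by linarith) hR1 hh.continuousOn hS), setIntegral_const, smul_eq_mul,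
    volume_real_slice h' hR he c hr.le hc,
    shellMean R' R r c h' hR hr hc e he ball2 h Weight.isOpen_ball2 hsub hh hp]
  ring

/-- The comparison: a bound on a region, a better bound on small discs around the centres, and
equal means leave a point below any value above the average. -/
theorem exists_le_of_slices {R' R : ℝ} (h' : 0 < R') (hR : R' < R) (hR1 : R < 1)
    {ζ : Fin 2 → ℂ} (hζ : ζ ∈ sph) {r r₀ a r₁ r₂ : ℝ} (hr₀ : 0 < r₀) (hr₁ : 0 < r₁) (hr₂ : 0 < r₂)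
    (hr : 0 ≤ r) (hU : r + r₀ ≤ R') (ha : 0 ≤ a) (hC : a + r₁ ≤ R') (h21 : r₂ ≤ r₁)
    (T : Finset (Fin 2 → ℂ)) (hT : ∀ e ∈ T, e ∈ sph)
    (hdisj : (↑T : Set (Fin 2 → ℂ)).PairwiseDisjoint
      fun e => sliceSet R' R e (Metric.ball (a : ℂ) r₁))
    (hin : ∀ e ∈ T, sliceSet R' R e (Metric.ball (a : ℂ) r₁)
      ⊆ sliceSet R' R ζ (Metric.ball (r : ℂ) r₀))
    {f h : (Fin 2 → ℂ) → ℝ} (hf : ContinuousOn f ball2) (hh : ContDiffOn ℝ 2 h ball2)
    (hp : ∀ z ∈ ball2, ∀ v, levQ h z v = 0) {K L : ℝ}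
    (hK : ∀ y ∈ sliceSet R' R ζ (Metric.ball (r : ℂ) r₀), f y ≤ K)
    (hL : ∀ e ∈ T, ∀ y ∈ sliceSet R' R e (Metric.ball (a : ℂ) r₂), f y ≤ L)
    (hneg : K * r₀ ^ 2 + (T.card : ℝ) * r₁ ^ 2 * (L - K) < 0) :
    ∃ y ∈ sliceSet R' R ζ (Metric.ball (r : ℂ) r₀), f y - h y ≤ -h ((r : ℂ) • ζ) := by
  by_contra hcon
  push Not at hcon
  set hx := h ((r : ℂ) • ζ) with hhx
  set U := sliceSet R' R ζ (Metric.ball (r : ℂ) r₀) with hUdef
  set Cs := fun e => sliceSet R' R e (Metric.ball (a : ℂ) r₁) with hCs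
  set Bs := fun e => sliceSet R' R e (Metric.ball (a : ℂ) r₂) with hBs
  set k := r₁ ^ 2 / r₂ ^ 2 with hk
  have hnr : ‖(r : ℂ)‖ = r := Complex.norm_of_nonneg hr
  have hna : ‖(a : ℂ)‖ = a := Complex.norm_of_nonneg ha
  have hmU : MeasurableSet U := Shells.measurableSet_sliceSet measurableSet_ball ζ
  have hmC : ∀ e, MeasurableSet (Cs e) := fun e =>
    Shells.measurableSet_sliceSet measurableSet_ball e
  have hmI : MeasurableSet (⋃ e ∈ T, Cs e) := T.measurableSet_biUnion fun e _ => hmC e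
  have hBC : ∀ e, Bs e ⊆ Cs e := fun e z hz => ⟨hz.1, Metric.ball_subset_ball h21 hz.2⟩
  have hI : (⋃ e ∈ T, Cs e) ⊆ U := Set.iUnion₂_subset hin
  set G := fun y => f y - h y + hx with hG
  have hGc : ContinuousOn G ball2 := (hf.sub hh.continuousOn).add continuousOn_const
  have hint : ∀ {F : (Fin 2 → ℂ) → ℝ}, ContinuousOn F ball2 → ∀ {S}, S ⊆ shell R' R →
      IntegrableOn F S := fun hF _ hS => integrableOn_shell (by linarith) hR1 hF hS
  have hsU : U ⊆ shell R' R := fun z hz => hz.1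
  have hsC : ∀ e, Cs e ⊆ shell R' R := fun e z hz => hz.1
  have hsB : ∀ e, Bs e ⊆ shell R' R := fun e z hz => hz.1
  have hc : ∀ c : ℝ, ContinuousOn (fun y => c - h y) ball2 := fun c =>
    continuousOn_const.sub hh.continuousOn
  have hpos : ∀ {S}, MeasurableSet S → S ⊆ U → 0 ≤ ∫ y in S, G y := fun hS hSU =>
    setIntegral_nonneg hS fun y hy => by
      have := hcon y (hSU hy)
      simp only [hG]
      linarith
  have hW : ∫ y in U \ (⋃ e ∈ T, Cs e), G y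
      ≤ (∫ y in U, (K + hx - h y)) - ∑ e ∈ T, ∫ y in Cs e, (K + hx - h y) := by
    rw [← integral_biUnion_finset T (fun e _ => hmC e) hdisj
      (fun e _ => hint (hc _) (hsC e)), ← integral_diff hmI (hint (hc _) hsU) hI]
    refine setIntegral_mono_on (hint hGc (diff_subset.trans hsU))
      (hint (hc _) (diff_subset.trans hsU)) (hmU.diff hmI) fun y hy => ?_
    have := hK y hy.1
    simp only [hG]
    linarith
  have hB : ∀ e ∈ T, ∫ y in Bs e, G y ≤ ∫ y in Bs e, (L + hx - h y) := fun e he => by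
    refine setIntegral_mono_on (hint hGc (hsB e)) (hint (hc _) (hsB e))
      (Shells.measurableSet_sliceSet measurableSet_ball e) fun y hy => ?_
    have := hL e he y hy
    simp only [hG]
    linarith
  have hk0 : 0 ≤ k := by positivity
  have h1 := hpos (hmU.diff hmI) diff_subset
  have h2 : 0 ≤ ∑ e ∈ T, ∫ y in Bs e, G y := Finset.sum_nonneg fun e he =>
    hpos (Shells.measurableSet_sliceSet measurableSet_ball e) ((hBC e).trans (hin e he))
  set w := π * (R ^ 2 - R' ^ 2) * π with hw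
  have hw0 : 0 < w := mul_pos (mul_pos Real.pi_pos (by nlinarith)) Real.pi_pos
  have iU : ∫ y in U, (K + hx - h y) = w * r₀ ^ 2 * K := by
    rw [hUdef, integral_const_sub h' hR hR1 hζ _ hr₀ (by rw [hnr]; exact hU) hh hp]
    simp only [hw, hhx]
    ring
  have iC : ∀ e ∈ T, ∫ y in Cs e, (K + hx - h y) = w * r₁ ^ 2 * (K + hx - h ((a : ℂ) • e)) :=
    fun e he => by
      rw [hCs, integral_const_sub h' hR hR1 (hT e he) _ hr₁ (by rw [hna]; exact hC) hh hp]
      simp only [hw]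
      ring
  have iB : ∀ e ∈ T, ∫ y in Bs e, (L + hx - h y) = w * r₂ ^ 2 * (L + hx - h ((a : ℂ) • e)) :=
    fun e he => by
      rw [hBs, integral_const_sub h' hR hR1 (hT e he) _ hr₂ (by rw [hna]; linarith) hh hp]
      simp only [hw]
      ring
  have hkB : k * ∑ e ∈ T, ∫ y in Bs e, G y
      ≤ ∑ e ∈ T, w * r₁ ^ 2 * (L + hx - h ((a : ℂ) • e)) := by
    rw [Finset.mul_sum]
    refine Finset.sum_le_sum fun e he => ?_
    refine (mul_le_mul_of_nonneg_left ((hB e he).trans (iB e he).le) hk0).trans (le_of_eq ?_)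
    rw [hk]
    field_simp
  rw [iU, Finset.sum_congr rfl iC] at hW
  have hsum : ∑ e ∈ T, w * r₁ ^ 2 * (L + hx - h ((a : ℂ) • e))
      - ∑ e ∈ T, w * r₁ ^ 2 * (K + hx - h ((a : ℂ) • e)) = (T.card : ℝ) * (w * r₁ ^ 2 * (L - K)) := by
    rw [← Finset.sum_sub_distrib, ← nsmul_eq_mul, ← Finset.sum_const]
    exact Finset.sum_congr rfl fun e _ => by ring
  have h3 : 0 ≤ k * ∑ e ∈ T, ∫ y in Bs e, G y := mul_nonneg hk0 h2
  nlinarith [mul_lt_mul_of_pos_left hneg hw0]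

end Step

end Vale.Agent.P250.Full
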